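import Mathlib

/-!
P345: every Diophantine set has Diophantine representations that are arbitrarily close to
finite-fold: the witnesses of height at most `T` number at most `log₂ T / (G a + 1)`, where `G`
is any function with Diophantine graph.

Gadget: the old witnesses, the value `g = G a` and an element `(x, y)` of the Pell sequence of
base `q + 1` with `y ≡ r (mod q)`, where `r < q` are large polynomials in the old witnesses. Then
the index `n` of `(x, y)` satisfies `n ≥ r` and `n ≡ r (mod q)`, while `2 ^ n ≤ x`.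
-/

namespace Vale.Agent.Results.P345.SparseFold

open MvPolynomial Finset

theorem sum_div_sq_le (X : ℕ) : ∀ j : ℕ,
    ∑ i ∈ range j, X / (i + 2) ^ 2 + X / (j + 1) ≤ X := by
  intro j
  induction j with
  | zero => simp
  | succ j ih =>
    rw [sum_range_succ]
    have key : X / (j + 2) ^ 2 + X / (j + 2) ≤ X / (j + 1) := by
      rw [Nat.le_div_iff_mul_le (Nat.succ_pos j)]
      have ha := Nat.div_mul_le_self X ((j + 2) ^ 2)
      have hb := Nat.div_mul_le_self X (j + 2)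
      refine Nat.le_of_mul_le_mul_right ?_ (show 0 < (j + 2) ^ 2 by positivity)
      nlinarith [Nat.mul_le_mul_right (j + 1) ha,
        Nat.mul_le_mul_right ((j + 1) * (j + 2)) hb, Nat.zero_le X]
    simp only [show j + 1 + 1 = j + 2 from rfl]
    omega

/-- Members of a residue class in an initial segment. -/
theorem card_class_le {L r q : ℕ} (hr : 0 < r) (hrq : r < q) :
    ((range (L + 1)).filter fun k => r ≤ k ∧ k % q = r).card ≤ 2 * (L / r) := by
  rcases lt_or_ge L r with hL | hL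
  · rw [card_eq_zero.2]
    · exact Nat.zero_le _
    · refine filter_eq_empty_iff.2 fun k hk h => ?_
      have := mem_range.1 hk
      omega
  · have h1 : ((range (L + 1)).filter fun k => r ≤ k ∧ k % q = r).card ≤
        (range (L / q + 1)).card := by
      refine card_le_card_of_injOn (fun k => k / q) ?_ ?_
      · intro k hk
        simp only [coe_filter, Set.mem_ofPred_eq, mem_range] at hk
        simp only [coe_range, Set.mem_Iio]
        exact Nat.lt_succ_of_le (Nat.div_le_div_right (by omega))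
      · intro k hk l hl h
        simp only [coe_filter, Set.mem_ofPred_eq, mem_range] at hk hl
        simp only at h
        rw [← Nat.div_add_mod k q, ← Nat.div_add_mod l q, h, hk.2.2, hl.2.2]
    rw [card_range] at h1
    have h2 : L / q ≤ L / r := Nat.div_le_div_left hrq.le hr
    have h3 : 1 ≤ L / r := Nat.one_le_div_iff hr |>.2 hL
    omega

/-- The counting behind the theorem. -/
theorem count_le {M K : ℕ} (hK : 0 < K) (L : ℕ)
    (F : Finset ((Fin M → ℕ) × ℕ))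
    (hF : ∀ p ∈ F, p.2 ≤ L ∧ K * (2 + ∑ i, p.1 i) ^ (M + 2) ≤ p.2 ∧
      p.2 % (K * (2 + ∑ i, p.1 i) ^ (M + 3)) = K * (2 + ∑ i, p.1 i) ^ (M + 2)) :
    F.card ≤ 2 * (L / K) := by
  classical
  have hpow : ∀ s : ℕ, 2 ≤ s → 0 < K * s ^ (M + 2) ∧ K * s ^ (M + 2) < K * s ^ (M + 3) :=
    fun s hs => ⟨by positivity, Nat.mul_lt_mul_of_pos_left
      (Nat.pow_lt_pow_right hs (by omega)) hK⟩
  set B : ℕ → Finset ((Fin M → ℕ) × ℕ) := fun i =>
    (Fintype.piFinset fun _ : Fin M => range (i + 2)) ×ˢ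
      (range (L + 1)).filter fun k =>
        K * (i + 2) ^ (M + 2) ≤ k ∧ k % (K * (i + 2) ^ (M + 3)) = K * (i + 2) ^ (M + 2)
  have hsub : F ⊆ (range (L + 1)).biUnion B := by
    intro p hp
    obtain ⟨h1, h2, h3⟩ := hF p hp
    have hs : 2 + ∑ i, p.1 i ≤ K * (2 + ∑ i, p.1 i) ^ (M + 2) :=
      le_trans (Nat.le_self_pow (by omega) _) (Nat.le_mul_of_pos_left _ hK)
    refine mem_biUnion.2 ⟨∑ i, p.1 i, mem_range.2 (by omega), ?_⟩
    simp only [B, mem_product, Fintype.mem_piFinset, mem_range, mem_filter]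
    rw [add_comm (∑ i, p.1 i) 2]
    refine ⟨fun i => ?_, by omega, h2, h3⟩
    have := single_le_sum (f := p.1) (fun i _ => Nat.zero_le _) (mem_univ i)
    omega
  have hB : ∀ i, (B i).card ≤ 2 * (L / K / (i + 2) ^ 2) := by
    intro i
    obtain ⟨hr, hrq⟩ := hpow (i + 2) (by omega)
    rw [card_product, Fintype.card_piFinset, prod_const, card_range, card_univ, Fintype.card_fin]
    refine le_trans (Nat.mul_le_mul_left _ (card_class_le hr hrq)) ?_
    have : (i + 2) ^ M * (L / (K * (i + 2) ^ (M + 2))) ≤ L / K / (i + 2) ^ 2 := by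
      rw [← Nat.div_div_eq_div_mul, show (i + 2) ^ (M + 2) = (i + 2) ^ 2 * (i + 2) ^ M by
        rw [← pow_add]; ring_nf, ← Nat.div_div_eq_div_mul]
      exact Nat.mul_div_le _ _
    calc (i + 2) ^ M * (2 * (L / (K * (i + 2) ^ (M + 2))))
        = 2 * ((i + 2) ^ M * (L / (K * (i + 2) ^ (M + 2)))) := by ring
      _ ≤ _ := Nat.mul_le_mul_left 2 this
  calc F.card ≤ ∑ i ∈ range (L + 1), (B i).card := (card_le_card hsub).trans card_biUnion_le
    _ ≤ ∑ i ∈ range (L + 1), 2 * (L / K / (i + 2) ^ 2) := sum_le_sum fun i _ => hB i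
    _ = 2 * ∑ i ∈ range (L + 1), L / K / (i + 2) ^ 2 := (mul_sum ..).symm
    _ ≤ 2 * (L / K) := Nat.mul_le_mul_left 2 (le_of_add_le_left (sum_div_sq_le _ _))

/-- A Pell pair of base `q + 1` in integer form is a member of the Pell sequence. -/
theorem exists_index {q x y : ℕ} (hq : 0 < q) (h : 1 < q + 1)
    (heq : (x : ℤ) ^ 2 - (((q : ℤ) + 1) ^ 2 - 1) * (y : ℤ) ^ 2 = 1) :
    ∃ j, x = Pell.xn h j ∧ y = Pell.yn h j ∧ 2 ^ j ≤ x := by
  have h1 : 1 ≤ (q + 1) * (q + 1) := Nat.mul_pos (Nat.succ_pos _) (Nat.succ_pos _)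
  have h4 : x * x = ((q + 1) * (q + 1) - 1) * y * y + 1 := by
    zify [h1]
    linear_combination heq
  obtain ⟨j, hx, hy⟩ := Pell.eq_pell h
    (show x * x - ((q + 1) * (q + 1) - 1) * y * y = 1 by omega)
  refine ⟨j, hx, hy, ?_⟩
  rw [hx]
  exact (Nat.pow_le_pow_left (by omega) j).trans (Pell.xn_ge_a_pow h j)

/-- Existence of the Pell pair with `y ≡ r (mod q)`. -/
theorem exists_pair {q r : ℕ} (hrq : r < q) : ∃ x y t : ℕ,
    (x : ℤ) ^ 2 - (((q : ℤ) + 1) ^ 2 - 1) * (y : ℤ) ^ 2 = 1 ∧ y = r + q * t := by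
  have h : 1 < q + 1 := by omega
  refine ⟨Pell.xn h r, Pell.yn h r, Pell.yn h r / q, ?_, ?_⟩
  · have h1 : 1 ≤ (q + 1) * (q + 1) := Nat.mul_pos (Nat.succ_pos _) (Nat.succ_pos _)
    have h4 : Pell.xn h r * Pell.xn h r =
        ((q + 1) * (q + 1) - 1) * Pell.yn h r * Pell.yn h r + 1 := by
      have := Pell.pell_eq h r
      change Pell.xn h r * Pell.xn h r - ((q + 1) * (q + 1) - 1) * _ * _ = 1 at this
      omega
    zify [h1] at h4
    linear_combination h4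
  · have hy : Pell.yn h r % q = r := by
      have := Pell.yn_modEq_a_sub_one h r
      simpa [Nat.ModEq, Nat.mod_eq_of_lt hrq] using this
    conv_lhs => rw [← Nat.mod_add_div (Pell.yn h r) q, hy]

/-- Counting the witnesses of the new equation with a prescribed value `g` of the marked
coordinate: `x`, `y`, `t` are the three new coordinates of a witness. -/
theorem count_witnesses {W : Type*} {M : ℕ} (g L : ℕ) (F : Finset W)
    (z : W → Fin M → ℕ) (x y t : W → ℕ)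
    (hext : ∀ w ∈ F, ∀ w' ∈ F, z w = z w' → x w = x w' → y w = y w' → t w = t w' → w = w')
    (hpell : ∀ w ∈ F, (x w : ℤ) ^ 2 -
      (((2 * (g + 1) * (2 + ∑ i, z w i) ^ (M + 3) : ℕ) + 1 : ℤ) ^ 2 - 1) * (y w : ℤ) ^ 2 = 1)
    (hy : ∀ w ∈ F, y w = 2 * (g + 1) * (2 + ∑ i, z w i) ^ (M + 2) +
      2 * (g + 1) * (2 + ∑ i, z w i) ^ (M + 3) * t w)
    (hbound : ∀ w ∈ F, ∀ j : ℕ, 2 ^ j ≤ x w → j ≤ L) :
    F.card * (g + 1) ≤ L := by
  classical
  have hq : ∀ w : W, 0 < 2 * (g + 1) * (2 + ∑ i, z w i) ^ (M + 3) := fun w => by positivity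
  have hdata : ∀ w : W, w ∈ F → ∃ j : ℕ,
      x w = Pell.xn (Nat.succ_lt_succ (hq w)) j ∧ y w = Pell.yn (Nat.succ_lt_succ (hq w)) j ∧
        2 ^ j ≤ x w :=
    fun w hw => exists_index (hq w) (Nat.succ_lt_succ (hq w)) (hpell w hw)
  choose! j hjx hjy hj2 using hdata
  have hinj : Set.InjOn (fun w => (z w, j w)) F := by
    intro w hw w' hw' h
    simp only [Prod.mk.injEq] at h
    obtain ⟨hz, hj⟩ := h
    have hx' : x w = x w' := by
      rw [hjx w hw, hjx w' hw', hj]; congr 1; rw [hz]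
    have hy' : y w = y w' := by
      rw [hjy w hw, hjy w' hw', hj]; congr 1; rw [hz]
    refine hext w hw w' hw' hz hx' hy' ?_
    have e := hy w hw
    rw [hy', hy w' hw', hz] at e
    exact (Nat.eq_of_mul_eq_mul_left (by positivity) (Nat.add_left_cancel e)).symm
  have hcount := count_le (M := M) (K := 2 * (g + 1)) (by positivity) L
    (F.image fun w => (z w, j w)) (by
      simp only [mem_image]
      rintro _ ⟨w, hw, rfl⟩
      dsimp only
      have hrq : 2 * (g + 1) * (2 + ∑ i, z w i) ^ (M + 2) <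
          2 * (g + 1) * (2 + ∑ i, z w i) ^ (M + 3) :=
        Nat.mul_lt_mul_of_pos_left (Nat.pow_lt_pow_right (by omega) (by omega)) (by positivity)
      have hmod : j w % (2 * (g + 1) * (2 + ∑ i, z w i) ^ (M + 3)) =
          2 * (g + 1) * (2 + ∑ i, z w i) ^ (M + 2) := by
        have h := Pell.yn_modEq_a_sub_one (Nat.succ_lt_succ (hq w)) (j w)
        rw [← hjy w hw, hy w hw] at h
        simpa [Nat.ModEq, Nat.mod_eq_of_lt hrq] using h.symm
      exact ⟨hbound w hw _ (hj2 w hw), hmod ▸ Nat.mod_le _ _, hmod⟩)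
  rw [card_image_of_injOn hinj] at hcount
  calc F.card * (g + 1) ≤ 2 * (L / (2 * (g + 1))) * (g + 1) :=
        Nat.mul_le_mul_right _ hcount
    _ = L / (2 * (g + 1)) * (2 * (g + 1)) := by ring
    _ ≤ L := Nat.div_mul_le_self _ _

/-- Splitting the new equation into its three parts. -/
theorem sum_three_eq_zero {A B C : ℤ} (hA : 0 ≤ A) :
    A + B ^ 2 + C ^ 2 = 0 ↔ A = 0 ∧ B = 0 ∧ C = 0 := by
  constructor
  · intro h
    have hB := sq_nonneg B
    have hC := sq_nonneg C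
    exact ⟨by linarith, sq_eq_zero_iff.1 (by linarith), sq_eq_zero_iff.1 (by linarith)⟩
  · rintro ⟨rfl, rfl, rfl⟩
    simp

/-- The meaning of the new equation. -/
theorem eval_gadget (n M : ℕ) (R : MvPolynomial (Fin n ⊕ Fin M) ℤ) (γ : Fin M)
    (hR : ∀ (a : Fin n → ℕ) (z : Fin M → ℕ),
      0 ≤ eval (fun i => ((Sum.elim a z i : ℕ) : ℤ)) R) :
    ∃ P : MvPolynomial (Fin n ⊕ Fin (M + 3)) ℤ, ∀ (a : Fin n → ℕ) (w : Fin (M + 3) → ℕ),
      eval (fun i => ((Sum.elim a w i : ℕ) : ℤ)) P = 0 ↔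
        eval (fun i => ((Sum.elim a (fun i => w (Fin.castAdd 3 i)) i : ℕ) : ℤ)) R = 0 ∧
        ((w (Fin.natAdd M 0) : ℤ) ^ 2 -
          (((2 * (w (Fin.castAdd 3 γ) + 1) *
            (2 + ∑ i, w (Fin.castAdd 3 i)) ^ (M + 3) : ℕ) + 1 : ℤ) ^ 2 - 1) *
          (w (Fin.natAdd M 1) : ℤ) ^ 2 = 1) ∧
        w (Fin.natAdd M 1) =
          2 * (w (Fin.castAdd 3 γ) + 1) * (2 + ∑ i, w (Fin.castAdd 3 i)) ^ (M + 2) +
          2 * (w (Fin.castAdd 3 γ) + 1) * (2 + ∑ i, w (Fin.castAdd 3 i)) ^ (M + 3) *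
            w (Fin.natAdd M 2) := by
  set v : Fin (M + 3) → MvPolynomial (Fin n ⊕ Fin (M + 3)) ℤ := fun i => X (Sum.inr i) with hv
  refine ⟨rename (Sum.map id (Fin.castAdd 3)) R +
    (v (Fin.natAdd M 0) ^ 2 - ((2 * (v (Fin.castAdd 3 γ) + 1) *
      (2 + ∑ i : Fin M, v (Fin.castAdd 3 i)) ^ (M + 3) + 1) ^ 2 - 1) *
        v (Fin.natAdd M 1) ^ 2 - 1) ^ 2 +
    (v (Fin.natAdd M 1) -
      (2 * (v (Fin.castAdd 3 γ) + 1) * (2 + ∑ i : Fin M, v (Fin.castAdd 3 i)) ^ (M + 2) +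
        2 * (v (Fin.castAdd 3 γ) + 1) * (2 + ∑ i : Fin M, v (Fin.castAdd 3 i)) ^ (M + 3) *
          v (Fin.natAdd M 2))) ^ 2, fun a w => ?_⟩
  have hcomp : (fun i => ((Sum.elim a w i : ℕ) : ℤ)) ∘ Sum.map id (Fin.castAdd 3) =
      fun i => ((Sum.elim a (fun i => w (Fin.castAdd 3 i)) i : ℕ) : ℤ) := by
    funext i
    rcases i with i | i <;> rfl
  simp only [map_add, map_sub, map_mul, map_pow, map_sum, map_one, map_ofNat, eval_rename, hcomp,
    hv, eval_X, Sum.elim_inr]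
  rw [sum_three_eq_zero (hR _ _), sub_eq_zero, sub_eq_zero]
  push_cast [← @Nat.cast_inj ℤ]
  exact Iff.rfl

/-- The new representation: the three Pell coordinates are attached to the old witnesses. -/
theorem gadget (n M : ℕ) (R : MvPolynomial (Fin n ⊕ Fin M) ℤ) (γ : Fin M)
    (hR : ∀ (a : Fin n → ℕ) (z : Fin M → ℕ),
      0 ≤ eval (fun i => ((Sum.elim a z i : ℕ) : ℤ)) R) :
    ∃ P : MvPolynomial (Fin n ⊕ Fin (M + 3)) ℤ,
      (∀ a : Fin n → ℕ, (∃ w : Fin (M + 3) → ℕ,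
          eval (fun i => ((Sum.elim a w i : ℕ) : ℤ)) P = 0) ↔
        ∃ z : Fin M → ℕ, eval (fun i => ((Sum.elim a z i : ℕ) : ℤ)) R = 0) ∧
      ∀ (a : Fin n → ℕ) (g : ℕ),
        (∀ z : Fin M → ℕ, eval (fun i => ((Sum.elim a z i : ℕ) : ℤ)) R = 0 → z γ = g) →
        ∀ (T : ℕ) (F : Finset (Fin (M + 3) → ℕ)),
          (∀ w ∈ F, eval (fun i => ((Sum.elim a w i : ℕ) : ℤ)) P = 0 ∧ ∀ i, w i ≤ T) →
          F.card * (g + 1) ≤ Nat.log 2 T := by
  obtain ⟨P, hP⟩ := eval_gadget n M R γ hR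
  refine ⟨P, fun a => ⟨fun ⟨w, hw⟩ => ⟨_, ((hP a w).1 hw).1⟩, fun ⟨z, hz⟩ => ?_⟩, ?_⟩
  · obtain ⟨x, y, t, h1, h2⟩ := exists_pair (q := 2 * (z γ + 1) * (2 + ∑ i, z i) ^ (M + 3))
      (r := 2 * (z γ + 1) * (2 + ∑ i, z i) ^ (M + 2))
      (Nat.mul_lt_mul_of_pos_left (Nat.pow_lt_pow_right (by omega) (by omega)) (by omega))
    refine ⟨Fin.append z ![x, y, t], (hP a _).2 ?_⟩
    simp only [Fin.append_left, Fin.append_right]
    exact ⟨hz, h1, h2⟩
  · intro a g hg T F hF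
    have hsplit : ∀ w ∈ F, w (Fin.castAdd 3 γ) = g := fun w hw =>
      hg _ ((hP a w).1 (hF w hw).1).1
    refine count_witnesses g (Nat.log 2 T) F (fun w i => w (Fin.castAdd 3 i))
      (fun w => w (Fin.natAdd M 0)) (fun w => w (Fin.natAdd M 1)) (fun w => w (Fin.natAdd M 2))
      (fun w _ w' _ hz hx hy ht => ?_) (fun w hw => ?_) (fun w hw => ?_) (fun w hw j hj => ?_)
    · funext i
      induction i using Fin.addCases with
      | left i => exact congrFun hz i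
      | right i => fin_cases i <;> assumption
    · have h := ((hP a w).1 (hF w hw).1).2.1
      rwa [hsplit w hw] at h
    · have h := ((hP a w).1 (hF w hw).1).2.2
      rwa [hsplit w hw] at h
    · exact Nat.le_log_of_pow_le one_lt_two (hj.trans ((hF w hw).2 _))

/-- For every Diophantine set and every function `G` with Diophantine graph there is a
representation with at most `log₂ T / (G a + 1)` witnesses of height at most `T`. -/
theorem result (n m₀ m₁ : ℕ) (P₀ : MvPolynomial (Fin n ⊕ Fin m₀) ℤ)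
    (Q : MvPolynomial (Option (Fin n) ⊕ Fin m₁) ℤ) (G : (Fin n → ℕ) → ℕ)
    (hG : ∀ (a : Fin n → ℕ) (g : ℕ), g = G a ↔ ∃ v : Fin m₁ → ℕ,
      eval (fun i => ((Sum.elim (Option.elim' g a) v i : ℕ) : ℤ)) Q = 0) :
    ∃ (m : ℕ) (P : MvPolynomial (Fin n ⊕ Fin m) ℤ),
      (∀ a : Fin n → ℕ, (∃ w : Fin m → ℕ,
          eval (fun i => ((Sum.elim a w i : ℕ) : ℤ)) P = 0) ↔
        ∃ u : Fin m₀ → ℕ, eval (fun i => ((Sum.elim a u i : ℕ) : ℤ)) P₀ = 0) ∧
      ∀ (a : Fin n → ℕ) (T : ℕ) (F : Finset (Fin m → ℕ)),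
        (∀ w ∈ F, eval (fun i => ((Sum.elim a w i : ℕ) : ℤ)) P = 0 ∧ ∀ i, w i ≤ T) →
        F.card * (G a + 1) ≤ Nat.log 2 T := by
  set e₀ : Fin n ⊕ Fin m₀ → Fin n ⊕ Fin (m₀ + (m₁ + 1)) := Sum.map id (Fin.castAdd (m₁ + 1))
    with he₀
  set e₁ : Option (Fin n) ⊕ Fin m₁ → Fin n ⊕ Fin (m₀ + (m₁ + 1)) :=
    Sum.elim (Option.elim' (Sum.inr (Fin.natAdd m₀ (Fin.last m₁))) Sum.inl)
      (fun i => Sum.inr (Fin.natAdd m₀ i.castSucc)) with he₁
  have hR : ∀ (a : Fin n → ℕ) (z : Fin (m₀ + (m₁ + 1)) → ℕ),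
      eval (fun i => ((Sum.elim a z i : ℕ) : ℤ)) ((rename e₀ P₀) ^ 2 + (rename e₁ Q) ^ 2) =
        (eval (fun i => ((Sum.elim a (fun i => z (Fin.castAdd (m₁ + 1) i)) i : ℕ) : ℤ)) P₀) ^ 2 +
        (eval (fun i => ((Sum.elim (Option.elim' (z (Fin.natAdd m₀ (Fin.last m₁))) a)
          (fun i => z (Fin.natAdd m₀ i.castSucc)) i : ℕ) : ℤ)) Q) ^ 2 := by
    intro a z
    rw [map_add, map_pow, map_pow, eval_rename, eval_rename]
    congr 4
    · funext i
      rcases i with i | i <;> simp [he₀]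
    · funext i
      rcases i with (_ | i) | i <;> simp [he₁]
  obtain ⟨P, hP1, hP2⟩ := gadget n (m₀ + (m₁ + 1))
    ((rename e₀ P₀) ^ 2 + (rename e₁ Q) ^ 2) (Fin.natAdd m₀ (Fin.last m₁))
    (fun a z => by rw [hR]; positivity)
  refine ⟨_, P, fun a => (hP1 a).trans ⟨fun ⟨z, hz⟩ => ?_, fun ⟨u, hu⟩ => ?_⟩,
    fun a => hP2 a (G a) fun z hz => ?_⟩
  · rw [hR, add_eq_zero_iff_of_nonneg (sq_nonneg _) (sq_nonneg _), sq_eq_zero_iff] at hz
    exact ⟨_, hz.1⟩
  · obtain ⟨v, hv⟩ := (hG a (G a)).1 rfl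
    refine ⟨Fin.append u (Fin.snoc v (G a)), ?_⟩
    rw [hR]
    simp only [Fin.append_left, Fin.append_right, Fin.snoc_last, Fin.snoc_castSucc, hu, hv]
    simp
  · rw [hR, add_eq_zero_iff_of_nonneg (sq_nonneg _) (sq_nonneg _), sq_eq_zero_iff,
      sq_eq_zero_iff] at hz
    exact (hG a _).2 ⟨_, hz.2⟩

end Vale.Agent.Results.P345.SparseFold
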